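import Vale.Agent.P146.H443.PathV

/-!
# P146: the upper bound of the functional with two exponents, from Guerra's bound and the path with
a jump
-/

set_option autoImplicit false

open MeasureTheory ProbabilityTheory Filter Topology Set

namespace Vale.Agent.P146.H443

open Vale.Agent.P157.Par
open Vale.Agent.P146.Gap
open Vale.Agent.P146.Pw2
open Vale.Agent.P146.Lb
open Vale.Agent.P146.Sh
open Vale.Agent.P367.Cl

/-- The excess of Guerra's bound with two shares of the bonds. -/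
theorem excess {K L : ℕ} {m q : ℕ → ℝ} (hm : Exponents K m) (hq : Path K q) (hL : L ≤ K)
    {C y : ℝ} (h : ∀ l < L, q l ≤ C * y) (hmL : m L ≤ 2 * y) :
    ∑ l ∈ Finset.range L, (m (l + 1) - m l) * q l ^ 2 ≤ 2 * C ^ 2 * y ^ 3 := by
  have h0 : ∀ l ≤ K, 0 ≤ q l := fun l hl => by
    have := minb_mono hq.2 (Nat.zero_le l) hl
    exact hq.1.trans this
  have h1 : ∑ l ∈ Finset.range L, (m (l + 1) - m l) * q l ^ 2 ≤
      ∑ l ∈ Finset.range L, (m (l + 1) - m l) * (C * y) ^ 2 := by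
    refine Finset.sum_le_sum fun l hl => ?_
    have hl' := Finset.mem_range.1 hl
    refine mul_le_mul_of_nonneg_left ?_ (sub_nonneg.2 (hm.2.2 l (by omega)).le)
    exact pow_le_pow_left₀ (h0 l (by omega)) (h l hl') 2
  rw [← Finset.sum_mul, Finset.sum_range_sub, hm.1, sub_zero] at h1
  refine h1.trans ?_
  have h2 : m L * (C * y) ^ 2 ≤ 2 * y * (C * y) ^ 2 :=
    mul_le_mul_of_nonneg_right hmL (sq_nonneg _)
  refine h2.trans (le_of_eq ?_)
  ring

/-- Guerra's bound for a functional with two exponents: the outer exponent `x ≤ m 1`, the share `T`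
of the bonds at the exponent `m L`, a plain field of variance `V` at the exponent `x`. -/
def GueLit (b : ℝ) (Psi : ℕ → ℝ → ℝ → ℝ → ℝ → ℝ) : Prop :=
  ∀ (N K L : ℕ) (m q : ℕ → ℝ), 0 < N → 2 ≤ L → L ≤ K → Exponents K m → Path K q → q 0 = 0 →
    ∀ T V x : ℝ, 0 ≤ T → T < 1 → 0 ≤ V → 0 < x → x ≤ m 1 → Psi N V x (m L) T ≤
      N * (Real.log 2 + spinPart K m (fun l => if l = 0 then 0 else b ^ 2 * q l + V) + V / 2 +
        b ^ 2 / 4 * (1 + ∑ l ∈ Finset.range (K + 1), (m (l + 1) - m l) * q l ^ 2) +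
        b ^ 2 / 4 * (T / (1 - T) * ∑ l ∈ Finset.range L, (m (l + 1) - m l) * q l ^ 2))

/-- **The upper bound of the functional with two exponents.** -/
theorem psi_up {b : ℝ} (hb : 1 < b) {A : ℝ}
    (hA : Tendsto (fun x => (Vx b x - P0 b) / x ^ 5) (𝓝[>] 0) (𝓝 A))
    {Psi : ℕ → ℝ → ℝ → ℝ → ℝ → ℝ} (hG : GueLit b Psi) :
    ∀ ε : ℝ, 0 < ε → ∃ c C : ℝ, 0 < c ∧ 1 ≤ C ∧ ∀ y : ℝ, 0 < y → y ≤ c →
      ∃ m : ℝ, 1.4 * y ≤ m ∧ m ≤ 2 * y ∧ m ≤ 1 ∧ ∀ (N : ℕ) (T V : ℝ), 0 < N → 0 ≤ T →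
        T ≤ 1 / 2 → 0 ≤ V → Psi N V y m T ≤ N * (Real.log 2 + P0 b + (A + ε) * y ^ 5 +
          V / (2 * b) + C * y ^ 2 * V + C * T * y ^ 3) := by
  intro ε hε
  obtain ⟨c, C, hc, hC, h⟩ := path_CV hb hA ε hε
  have hC0 : 0 < C := by linarith only [hC]
  have hb0 : 0 < b := by linarith only [hb]
  refine ⟨c, C + 2 * b ^ 2 * C ^ 2, hc, by
    have : 0 < 2 * b ^ 2 * C ^ 2 := by positivity
    linarith only [this, hC], fun y hy hyc => ?_⟩
  obtain ⟨K, m, q, L, e1, e2, e3, e4, e5, e6, e7, e8, e9, e10, e11, e12, e13⟩ := h y hy hyc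
  have hL2 : 2 ≤ L := by
    by_contra hcon
    have : L = 1 := by omega
    subst this
    linarith only [e6, e9, hy]
  refine ⟨m L, e9, e10, (minb_exp e1).2.2 L (by omega), fun N T V hN hT hT2 hV => ?_⟩
  have h1 := hG N K L m q hN hL2 e8 e1 e2 e3 T V y hT (by linarith only [hT2]) hV hy e5
  refine h1.trans (mul_le_mul_of_nonneg_left ?_ (Nat.cast_nonneg N))
  have h2 := e13 V hV
  have h3 := excess e1 e2 e8 e11 e10
  have h4 : T / (1 - T) ≤ 2 * T := by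
    rw [div_le_iff₀ (by linarith only [hT2])]
    nlinarith only [hT, hT2]
  have h5 : 0 ≤ ∑ l ∈ Finset.range L, (m (l + 1) - m l) * q l ^ 2 :=
    Finset.sum_nonneg fun l hl => mul_nonneg
      (sub_nonneg.2 (e1.2.2 l (by have := Finset.mem_range.1 hl; omega)).le) (sq_nonneg _)
  have h6 : T / (1 - T) * ∑ l ∈ Finset.range L, (m (l + 1) - m l) * q l ^ 2 ≤
      2 * T * (2 * C ^ 2 * y ^ 3) :=
    mul_le_mul h4 h3 h5 (by linarith only [hT])
  have h7 := mul_le_mul_of_nonneg_left h6 (show 0 ≤ b ^ 2 / 4 by positivity)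
  have e14 : SKpar b K m q = b ^ 2 / 4 * (1 + ∑ l ∈ Finset.range (K + 1),
      (m (l + 1) - m l) * q l ^ 2) + spinPart K m (fun l => b ^ 2 * q l) := rfl
  rw [e14] at e12
  have h8 : b ^ 2 / 4 * (2 * T * (2 * C ^ 2 * y ^ 3)) ≤ 2 * b ^ 2 * C ^ 2 * T * y ^ 3 := by
    have : 0 ≤ b ^ 2 * C ^ 2 * T * y ^ 3 := by positivity
    linarith only [this]
  have h9 : 0 ≤ 2 * b ^ 2 * C ^ 2 * y ^ 2 * V := by positivity
  have h10 : 0 ≤ C * T * y ^ 3 := by positivity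
  linarith only [h2, h7, h8, h9, h10, e12]

end Vale.Agent.P146.H443
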