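import Vale.Agent.P146.Bd4.B5

/-!
# P146: the path of a constrained minimiser, with a jump of the exponents after the first block
-/

set_option autoImplicit false

open Filter Topology Set

namespace Vale.Agent.P146.H443

open Vale.Agent.P157.Par
open Vale.Agent.P146.Gap
open Vale.Agent.P146.Pw2
open Vale.Agent.P146.Lb
open Vale.Agent.P146.Sh
open Vale.Agent.P367.Cl

/-- A path which vanishes below the level `e + 1` of the grid, as a path with the exponents
`0, (e+1)/(n+1), …` -/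
theorem shift_path {b : ℝ} (hb0 : 0 < b) {e K : ℕ} {r : ℕ → ℝ}
    (hr : BPath b (e + K) r) (h0 : ∀ l < e + 1, r l = 0) :
    ∃ m q : ℕ → ℝ, Exponents K m ∧ Path K q ∧ q 0 = 0 ∧ q K ≤ 1 ∧
      (∀ j, 1 ≤ j → m j = gm (e + K) (e + j)) ∧ (∀ j, q j = r (e + j) / b ^ 2) ∧
      SKpar b K m q = SKr b (e + K) (gm (e + K)) r := by
  set m' : ℕ → ℝ := fun j => if j = 0 then 0 else gm (e + K) (e + j) with hm'
  set r' : ℕ → ℝ := fun j => r (e + j) with hr'
  have hexp : Exponents K m' := by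
    refine ⟨by simp [hm'], ?_, fun l hl => ?_⟩
    · have h1 : m' (K + 1) = gm (e + K) (e + (K + 1)) := by simp [hm']
      rw [h1]
      exact grid_gm_top (e + K)
    · have h1 : m' (l + 1) = gm (e + K) (e + (l + 1)) := by simp [hm']
      rw [h1]
      by_cases hl0 : l = 0
      · subst hl0
        have h2 : m' 0 = 0 := by simp [hm']
        rw [h2]
        exact grid_gm_pos (by omega)
      · have h2 : m' l = gm (e + K) (e + l) := by simp [hm', hl0]
        rw [h2]
        exact (gm_exponents (e + K)).2.2 (e + l) (by omega)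
  have hr0 : r' 0 = 0 := h0 e (by omega)
  have hpath : Path K r' := ⟨hr0.symm.le, fun l hl => hr.2.1.2 (e + l) (by omega)⟩
  have hend : r' K ≤ b ^ 2 := hr.2.2
  have hcas : cascade (gm (e + K)) r (e + K) lc = cascade m' r' K lc := by
    rw [minb_split, minb_flat (fun l h1 h2 => (grid_gm_pos h1).ne')
      (fun l hl => by rw [h0 l (by omega), h0 0 (by omega)])]
    refine minb_congr (fun l h1 h2 => ?_) (fun l hl => rfl) lc
    have : l ≠ 0 := by omega
    simp [hm', this]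
  have hspin : spinPart K m' r' = spinPart (e + K) (gm (e + K)) r := by
    unfold spinPart
    have h1 : cascade m' r' K (fun x => Real.log (Real.cosh x)) =
        cascade (gm (e + K)) r (e + K) (fun x => Real.log (Real.cosh x)) := hcas.symm
    rw [h1, hr0, h0 0 (by omega)]
  have hsum : ∑ l ∈ Finset.range (K + 1), (m' (l + 1) - m' l) * r' l ^ 2 =
      ∑ l ∈ Finset.range (e + K + 1), (gm (e + K) (l + 1) - gm (e + K) l) * r l ^ 2 := by
    have h1 : e + K + 1 = e + (K + 1) := by ring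
    rw [h1, Finset.sum_range_add _ e (K + 1)]
    have h2 : ∑ l ∈ Finset.range e, (gm (e + K) (l + 1) - gm (e + K) l) * r l ^ 2 = 0 := by
      refine Finset.sum_eq_zero fun l hl => ?_
      have := Finset.mem_range.1 hl
      rw [h0 l (by omega)]
      ring
    rw [h2, zero_add]
    refine Finset.sum_congr rfl fun l hl => ?_
    by_cases hl0 : l = 0
    · subst hl0
      have h3 : r (e + 0) = 0 := h0 e (by omega)
      rw [hr0, h3]
      ring
    · have h3 : m' l = gm (e + K) (e + l) := by simp [hm', hl0]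
      have h4 : m' (l + 1) = gm (e + K) (e + (l + 1)) := by simp [hm']
      rw [h3, h4]
      rfl
  have hSK : SKr b K m' r' = SKr b (e + K) (gm (e + K)) r := by
    unfold SKr
    rw [hspin, hsum]
  refine ⟨m', fun l => r' l / b ^ 2, hexp, ⟨?_, fun l hl => ?_⟩, ?_, ?_, fun j hj => ?_,
    fun j => rfl, ?_⟩
  · exact div_nonneg hpath.1 (by positivity)
  · exact div_le_div_of_nonneg_right (hpath.2 l hl) (by positivity)
  · simp only [hr0, zero_div]
  · simp only []
    rw [div_le_one (by positivity)]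
    exact hend
  · have : j ≠ 0 := by omega
    simp [hm', this]
  · rw [gap2_SKr_eq hb0, hSK]

/-- **The path with a jump.**  For every `ε > 0` there are `c, C` such that for every `y ∈ (0, c]`
there is a path with first exponent in `[y, 1.01 y]`, at most `C y` up to a level `L` with exponent
in `[1.4 y, 2.02 y]`, and value at most `P₀ + (A + ε) y⁵`. -/
theorem path_C {b : ℝ} (hb : 1 < b) {A : ℝ}
    (hA : Tendsto (fun x => (Vx b x - P0 b) / x ^ 5) (𝓝[>] 0) (𝓝 A)) :
    ∀ ε : ℝ, 0 < ε → ∃ c C : ℝ, 0 < c ∧ 1 ≤ C ∧ ∀ y : ℝ, 0 < y → y ≤ c →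
      ∃ (K : ℕ) (m q : ℕ → ℝ) (L : ℕ), Exponents K m ∧ Path K q ∧ q 0 = 0 ∧ q K ≤ 1 ∧
        y ≤ m 1 ∧ m 1 ≤ 1.01 * y ∧ 1 ≤ L ∧ L ≤ K ∧ 1.4 * y ≤ m L ∧ m L ≤ 2.02 * y ∧
        (∀ l < L, q l ≤ C * y) ∧ SKpar b K m q ≤ P0 b + (A + ε) * y ^ 5 := by
  intro ε hε
  have hb0 : 0 < b := by linarith
  obtain ⟨ca, Ca, hca, hCa, hlA⟩ := lawA hb
  obtain ⟨cc, Cc, hcc, hCc, hlC⟩ := lawC hb
  -- the scale of the value
  have hev : ∀ᶠ x in 𝓝[>] (0 : ℝ), |(Vx b x - P0 b) / x ^ 5 - A| ≤ ε / 2 := by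
    filter_upwards [(Metric.tendsto_nhds.1 hA) (ε / 2) (by positivity)] with x hx
    rw [Real.dist_eq] at hx
    exact hx.le
  obtain ⟨y₁, hy₁, hyV⟩ : ∃ y₁ : ℝ, 0 < y₁ ∧ ∀ y, 0 < y → y < y₁ →
      |(Vx b y - P0 b) / y ^ 5 - A| ≤ ε / 2 := by
    rw [eventually_nhdsWithin_iff, Metric.eventually_nhds_iff] at hev
    obtain ⟨δ, hδ, h⟩ := hev
    refine ⟨δ, hδ, fun y hy0 hy => h ?_ hy0⟩
    rw [Real.dist_eq, sub_zero, abs_of_pos hy0]
    exact hy
  -- the constants
  obtain ⟨c, hc⟩ : ∃ c : ℝ, c = min (min (y₁ / 2) (1 / 4)) (min (min (ca / 2) (cc / 2))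
    ((1 / (20 * Cc)) ^ 2)) := ⟨_, rfl⟩
  have hCc0 : 0 < Cc := by linarith only [hCc]
  have hc0 : 0 < c := by rw [hc]; positivity
  have hcy : c ≤ y₁ / 2 := by
    rw [hc]; exact (min_le_left _ _).trans (min_le_left _ _)
  have hc4 : c ≤ 1 / 4 := by
    rw [hc]; exact (min_le_left _ _).trans (min_le_right _ _)
  have hcca : c ≤ ca / 2 := by
    rw [hc]; exact (min_le_right _ _).trans ((min_le_left _ _).trans (min_le_left _ _))
  have hccc : c ≤ cc / 2 := by
    rw [hc]; exact (min_le_right _ _).trans ((min_le_left _ _).trans (min_le_right _ _))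
  have hcs : c ≤ (1 / (20 * Cc)) ^ 2 := by
    rw [hc]; exact (min_le_right _ _).trans (min_le_right _ _)
  refine ⟨c, 2 * (Ca + 1), hc0, by linarith only [hCa], fun y hy hyc => ?_⟩
  have hy1 : y < 1 := by linarith only [hyc, hc4]
  have hy5 : 0 < y ^ 5 := by positivity
  -- the grid
  have t := shlim_td hy
  have e1 : ∀ᶠ n : ℕ in atTop, gm n (shlimd y n) < 1.01 * y :=
    t.eventually (gt_mem_nhds (by linarith only [hy]))
  have e2 : ∀ᶠ n : ℕ in atTop, 2 * b ^ 2 / ((n : ℝ) + 1) ≤ ε / 2 * y ^ 5 := by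
    have h1 : Tendsto (fun n : ℕ => 2 * b ^ 2 / ((n : ℝ) + 1)) atTop (𝓝 0) :=
      tendsto_const_nhds.div_atTop shlim_n1
    exact (h1.eventually (gt_mem_nhds (by positivity))).mono fun _ h => h.le
  obtain ⟨n, h1, h2, h3, h4⟩ := (e1.and (e2.and ((shlim_le hy1).and
    (shlim_big hy (max Ca Cc) 40)))).exists
  have g1 := shlim_ge y n
  have g2 := shlim_one hy n
  have g3 := shlim_lt hy n
  generalize shlimd y n = d at *
  obtain ⟨r, hr⟩ := exists_minD (n := n) (d := d) hb0 h3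
  have hgc : gm n d ≤ 2 * c := by linarith only [h1, hyc, hy]
  obtain ⟨-, a2, -, -⟩ := hlA n d r g2 h3 hr (by linarith only [hgc, hcca])
    ((le_max_left _ _).trans h4)
  obtain ⟨L, l1, l2, l3, l4, l5⟩ := hlC n d r g2 h3 hr (by linarith only [hgc, hccc])
    ((le_max_right _ _).trans h4)
  obtain ⟨e, rfl⟩ : ∃ e, d = e + 1 := ⟨d - 1, by omega⟩
  obtain ⟨K, rfl⟩ : ∃ K, n = e + K := ⟨n - e, by omega⟩
  obtain ⟨m, q, f1, f2, f3, f4, f5, f6, f7⟩ := shift_path hb0 hr.1 hr.2.1
  have hg0 : 0 < gm (e + K) (e + 1) := hy.trans_le g1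
  have hg1 : gm (e + K) (e + 1) ≤ 1 := by linarith only [h1, hy1, hyc, hc4, hy]
  refine ⟨K, m, q, L - e, f1, f2, f3, f4, ?_, ?_, by omega, by omega, ?_, ?_, fun l hl => ?_, ?_⟩
  · rw [f5 1 le_rfl]
    exact g1
  · rw [f5 1 le_rfl]
    exact h1.le
  · rw [f5 (L - e) (by omega), show e + (L - e) = L by omega]
    refine le_trans ?_ l5
    have hs : √(gm (e + K) (e + 1)) ≤ 1 / (10 * Cc) := by
      rw [Real.sqrt_le_left (by positivity)]
      have h5 : 1.01 * y ≤ 2 * (1 / (20 * Cc)) ^ 2 := by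
        have h6 : 0 < (1 / (20 * Cc)) ^ 2 := by positivity
        linarith only [hyc, hcs, h6, hy]
      have h7 : (1 / (10 * Cc)) ^ 2 = 4 * (1 / (20 * Cc)) ^ 2 := by
        field_simp
        ring
      have h6 : 0 < (1 / (20 * Cc)) ^ 2 := by positivity
      rw [h7]
      linarith only [h5, h1, h6]
    have h8 : Cc * (gm (e + K) (e + 1) * √(gm (e + K) (e + 1))) ≤
        1 / 10 * gm (e + K) (e + 1) := by
      calc Cc * (gm (e + K) (e + 1) * √(gm (e + K) (e + 1))) =
            Cc * gm (e + K) (e + 1) * √(gm (e + K) (e + 1)) := by ring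
        _ ≤ Cc * gm (e + K) (e + 1) * (1 / (10 * Cc)) :=
            mul_le_mul_of_nonneg_left hs (by positivity)
        _ = 1 / 10 * gm (e + K) (e + 1) := by field_simp
    linarith only [h8, g1]
  · rw [f5 (L - e) (by omega), show e + (L - e) = L by omega]
    have h5 := dn_gm (n := e + K) l2
    linarith only [h5, h1]
  · rw [f6, div_le_iff₀ (by positivity)]
    have h5 : r (e + l) ≤ r (L - 1) := len_mono hr.1 (by omega) (by omega)
    have h6 : gm (e + K) (e + 1) ^ 4 ≤ gm (e + K) (e + 1) := by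
      calc gm (e + K) (e + 1) ^ 4 ≤ gm (e + K) (e + 1) ^ 1 :=
            pow_le_pow_of_le_one hg0.le hg1 (by norm_num)
        _ = _ := pow_one _
    have h7 : r (e + l) ≤ (Ca + 1) * gm (e + K) (e + 1) := by
      linarith only [h5, l4, a2, h6]
    have h8 : (Ca + 1) * gm (e + K) (e + 1) ≤ (Ca + 1) * (2 * y) :=
      mul_le_mul_of_nonneg_left (by linarith only [h1, hy]) (by linarith only [hCa])
    have h9 : 2 * (Ca + 1) * y ≤ 2 * (Ca + 1) * y * b ^ 2 := by
      refine le_mul_of_one_le_right ?_ ?_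
      · have : 0 < Ca + 1 := by linarith only [hCa]
        positivity
      · exact one_le_pow₀ hb.le
    linarith only [h7, h8, h9]
  · rw [f7]
    have h5 := vx_ge hb g2 h3 hy hy1.le g3 hr
    have h6 := (abs_le.1 (hyV y hy (by linarith only [hyc, hcy, hy]))).2
    have h7 : (Vx b y - P0 b) / y ^ 5 ≤ A + ε / 2 := by linarith only [h6]
    rw [div_le_iff₀ hy5] at h7
    have h8 : (A + ε) * y ^ 5 = (A + ε / 2) * y ^ 5 + ε / 2 * y ^ 5 := by ring
    rw [h8]
    linarith only [h5, h7, h2]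

end Vale.Agent.P146.H443
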