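import Vale.Agent.P146.H443.Path
import Vale.Agent.P146.R3.H729.Law2

/-!
# P146: the path of a constrained minimiser in a small Gaussian field at the first exponent
-/

set_option autoImplicit false

open MeasureTheory ProbabilityTheory Filter Topology Set

namespace Vale.Agent.P146.H443

open Vale.Agent.P157.Par
open Vale.Agent.P146.Gap
open Vale.Agent.P146.Pw2
open Vale.Agent.P146.Lb
open Vale.Agent.P146.Sh
open Vale.Agent.P367.Cl

/-- Only the increments of the path matter. -/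
theorem cascade_shift (m r : ℕ → ℝ) (c : ℝ) (k : ℕ) (F : ℝ → ℝ) :
    cascade m (fun l => r l + c) k F = cascade m r k F := by
  induction k generalizing F with
  | zero => rfl
  | succ k ih =>
    rw [cascade_succ_def, cascade_succ_def, ih]
    congr 2
    ring

theorem fj_odd1 {g C : ℝ} {F : ℝ → ℝ} (hA : Adm C F) (hg : 0 < g) (hg1 : g ≤ 1) {t : ℝ}
    (ht : 0 ≤ t) : fj g F 1 t 0 = 0 := by
  have h1 := theta_iter_even (hA.step hg hg1 ht).even 1 0
  rw [neg_zero, pow_one] at h1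
  unfold fj
  linarith only [h1]

theorem fj_odd3 {g C : ℝ} {F : ℝ → ℝ} (hA : Adm C F) (hg : 0 < g) (hg1 : g ≤ 1) {t : ℝ}
    (ht : 0 ≤ t) : fj g F 3 t 0 = 0 := by
  have h1 := theta_iter_even (hA.step hg hg1 ht).even 3 0
  rw [neg_zero, show (-1 : ℝ) ^ 3 = -1 by norm_num] at h1
  unfold fj
  linarith only [h1]

theorem fj_bet {g C : ℝ} {F : ℝ → ℝ} (h : Good g C F) (hg : 0 < g) (hg1 : g ≤ 1) {t : ℝ}
    (ht : 0 ≤ t) : fj g F 4 t 0 + 2 * g * fj g F 2 t 0 ^ 2 ≤ 0 := by
  have h1 := bet_step h.adm h.bet_nonneg hg hg1 ht 0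
  have h2 : 0 < fj g F 2 t 0 := adm_fj2_pos h.adm hg hg1 t 0
  have h3 := fj_odd3 h.adm hg hg1 ht
  have e : bet g (gstep g t F) 0 = (fj g F 3 t 0 / fj g F 2 t 0) ^ 2 - fj g F 4 t 0 / fj g F 2 t 0
    - 2 * g * fj g F 2 t 0 := rfl
  rw [e, h3, zero_div] at h1
  generalize fj g F 2 t 0 = a at *
  generalize fj g F 4 t 0 = c at *
  have h4 : c / a ≤ -(2 * g * a) := by linarith only [h1]
  rw [div_le_iff₀ h2] at h4
  linarith only [h4]

theorem fj_c0 {g : ℝ} {F : ℝ → ℝ} (h : SmB F) (hg : 0 < g) (j : ℕ) :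
    Continuous fun t => fj g F j t 0 := by
  have h1 := fj_cont h hg j
  generalize fj g F j = G at *
  exact h1.comp (continuous_id.prodMk continuous_const)

theorem anti_of {f f' : ℝ → ℝ} (hc : Continuous f) (hd : ∀ t, 0 < t → HasDerivAt f (f' t) t)
    (h : ∀ t, 0 < t → f' t ≤ 0) : AntitoneOn f (Ici 0) := by
  refine antitoneOn_of_deriv_nonpos (convex_Ici 0) hc.continuousOn ?_ ?_
  · intro t ht
    rw [interior_Ici] at ht
    exact (hd t ht).differentiableAt.differentiableWithinAt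
  · intro t ht
    rw [interior_Ici] at ht
    rw [(hd t ht).deriv]
    exact h t ht

theorem fj2_anti {g C : ℝ} {F : ℝ → ℝ} (h : Good g C F) (hg : 0 < g) (hg1 : g ≤ 1) :
    AntitoneOn (fun t => fj g F 2 t 0) (Ici 0) := by
  have hA := h.adm
  have hc2 : Continuous fun t => fj g F 2 t 0 := fj_c0 hA.smb hg 2
  refine anti_of hc2 (fun t ht => fj_s2 hA.smb hg ht 0) fun t ht => ?_
  have h1 := fj_bet h hg hg1 (le_of_lt ht)
  have h2 := fj_odd1 hA hg hg1 (le_of_lt ht)
  generalize fj g F 1 t 0 = a at *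
  generalize fj g F 2 t 0 = b at *
  generalize fj g F 3 t 0 = c at *
  generalize fj g F 4 t 0 = d at *
  subst h2
  linarith only [h1]

/-- The value at the origin after a Parisi step of variance `V`, with the exponent of the class. -/
theorem gstep_le {g C : ℝ} {F : ℝ → ℝ} (h : Good g C F) (hg : 0 < g) (hg1 : g ≤ 1) {V : ℝ}
    (hV : 0 ≤ V) : gstep g V F 0 ≤ F 0 + V / 2 * iteratedDeriv 2 F 0 := by
  have hA := h.adm
  have hc0 : Continuous fun t => fj g F 0 t 0 := fj_c0 hA.smb hg 0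
  have h20 : fj g F 2 0 0 = iteratedDeriv 2 F 0 := fj_zero hg.ne' F 2 0
  have h00 : fj g F 0 0 0 = F 0 := by
    have := fj_zero hg.ne' F 0 0
    rwa [iteratedDeriv_zero] at this
  have h2 : fj g F 0 V 0 = gstep g V F 0 := by
    unfold fj
    rw [iteratedDeriv_zero]
  have hanti2 := fj2_anti h hg hg1
  have hodd : ∀ t, 0 ≤ t → fj g F 1 t 0 = 0 := fun t ht => fj_odd1 hA hg hg1 ht
  have hd0 : ∀ t, 0 < t → HasDerivAt (fun t => fj g F 0 t 0)
    (1 / 2 * (fj g F 2 t 0 + g * fj g F 1 t 0 ^ 2)) t := fun t ht => fj_s0 hA.smb hg ht 0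
  rw [← h2, ← h00, ← h20]
  clear h2 h00 h20 h hA
  have hanti0 : AntitoneOn (fun t => fj g F 0 t 0 - t / 2 * fj g F 2 0 0) (Ici 0) := by
    refine anti_of (hc0.sub (by fun_prop)) (fun t ht => (hd0 t ht).sub
      (((hasDerivAt_id t).div_const 2).mul_const _)) fun t ht => ?_
    have h1 : fj g F 2 t 0 ≤ fj g F 2 0 0 :=
      hanti2 (mem_Ici.2 le_rfl) (mem_Ici.2 (le_of_lt ht)) (le_of_lt ht)
    have h2 := hodd t (le_of_lt ht)
    generalize fj g F 1 t 0 = a at *
    generalize fj g F 2 t 0 = b at *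
    generalize fj g F 2 0 0 = c at *
    subst h2
    linarith only [h1]
  have h1 : fj g F 0 V 0 - V / 2 * fj g F 2 0 0 ≤ fj g F 0 0 0 - 0 / 2 * fj g F 2 0 0 :=
    hanti0 (mem_Ici.2 le_rfl) (mem_Ici.2 hV) hV
  linarith only [h1]

/-- **A Gaussian field of variance `V` at the first exponent.** -/
theorem field_path {K : ℕ} {m r : ℕ → ℝ} (hm : Exponents K m) (hr : Path K r) (h0 : r 0 = 0)
    (hK : 1 ≤ K) {V : ℝ} (hV : 0 ≤ V) :
    spinPart K m (fun l => if l = 0 then 0 else r l + V) + V / 2 ≤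
      spinPart K m r + V / 2 * iteratedDeriv 2 (cascade m r K lc) 0 := by
  obtain ⟨k, rfl⟩ : ∃ k, K = k + 1 := ⟨K - 1, by omega⟩
  obtain ⟨q1, q2, q3⟩ := minb_exp hm
  have hm1 : 0 < m 1 := q2 1 le_rfl (by omega)
  have hm11 : m 1 ≤ 1 := q3 1 (by omega)
  obtain ⟨C₀, hG0⟩ := fl_good hm hr (Nat.zero_le (k + 1))
  obtain ⟨C₁, hG1⟩ := fl_good hm hr (show 1 ≤ k + 1 by omega)
  rw [zero_add] at hG0
  have hr1 : 0 ≤ r 1 := by
    have := hr.2 0 (by omega)
    rw [h0, zero_add] at this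
    exact this
  -- the new cascade
  have e1 : cascade m (fun l => if l = 0 then 0 else r l + V) (k + 1) lc =
      gstep (m 1) (r 1 + V) (Fl (k + 1) m r 1) := by
    conv_lhs => rw [show k + 1 = 1 + k by ring, minb_split]
    have e2 : cascade (fun l => m (1 + l))
        (fun l => (fun l => if l = 0 then 0 else r l + V) (1 + l)) k lc = Fl (k + 1) m r 1 := by
      unfold Fl
      rw [show k + 1 - 1 = k by omega, ← cascade_shift (fun l => m (1 + l)) (fun l => r (1 + l)) V]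
      refine minb_congr (fun _ _ _ => rfl) (fun l _ => ?_) lc
      simp
    rw [e2, show (1 : ℕ) = 0 + 1 by rfl, cascade_succ_def]
    simp only [zero_add, Nat.one_ne_zero, if_false, if_true, sub_zero]
    rfl
  have e3 : cascade m r (k + 1) lc = gstep (m 1) (r 1) (Fl (k + 1) m r 1) := by
    rw [← fl_zero, fl_succ (show 0 < k + 1 by omega), h0, sub_zero]
  have e4 : gstep (m 1) (r 1 + V) (Fl (k + 1) m r 1) = gstep (m 1) V (cascade m r (k + 1) lc) := by
    rw [e3, gstep_add hG1.adm hm1 hV hr1, add_comm]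
  have h1 := gstep_le hG0 hm1 hm11 hV
  rw [fl_zero] at h1
  have s1 : spinPart (k + 1) m (fun l => if l = 0 then 0 else r l + V) =
      gstep (m 1) V (cascade m r (k + 1) lc) 0 - (r (k + 1) + V) / 2 := by
    unfold spinPart
    have e5 : cascade m (fun l => if l = 0 then 0 else r l + V) (k + 1)
        (fun x => Real.log (Real.cosh x)) = gstep (m 1) V (cascade m r (k + 1) lc) := by
      rw [← e4, ← e1]
      rfl
    rw [e5]
    simp
  have s2 : spinPart (k + 1) m r = cascade m r (k + 1) lc 0 - r (k + 1) / 2 := by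
    unfold spinPart
    have e5 : cascade m r (k + 1) (fun x => Real.log (Real.cosh x)) =
      cascade m r (k + 1) lc := rfl
    rw [e5, h0]
    simp
  rw [s1, s2]
  linarith only [h1]

/-- A path which vanishes below the level `e + 1` of the grid, as a path with the exponents
`0, (e+1)/(n+1), …` -/
theorem shift_path' {b : ℝ} (hb0 : 0 < b) {e K : ℕ} {r : ℕ → ℝ}
    (hr : BPath b (e + K) r) (h0 : ∀ l < e + 1, r l = 0) :
    ∃ m q : ℕ → ℝ, Exponents K m ∧ Path K q ∧ q 0 = 0 ∧ q K ≤ 1 ∧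
      (∀ j, 1 ≤ j → m j = gm (e + K) (e + j)) ∧ (∀ j, q j = r (e + j) / b ^ 2) ∧
      SKpar b K m q = SKr b (e + K) (gm (e + K)) r ∧
      cascade m (fun l => b ^ 2 * q l) K lc = cascade (gm (e + K)) r (e + K) lc := by
  set m' : ℕ → ℝ := fun j => if j = 0 then 0 else gm (e + K) (e + j) with hm'
  set r' : ℕ → ℝ := fun j => r (e + j) with hr'
  have hexp : Exponents K m' := by
    refine ⟨by simp [hm'], ?_, fun l hl => ?_⟩
    · have h1 : m' (K + 1) = gm (e + K) (e + (K + 1)) := by simp [hm']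
      rw [h1]
      exact grid_gm_top (e + K)
    · have h1 : m' (l + 1) = gm (e + K) (e + (l + 1)) := by simp [hm']
      rw [h1]
      by_cases hl0 : l = 0
      · subst hl0
        have h2 : m' 0 = 0 := by simp [hm']
        rw [h2]
        exact grid_gm_pos (by omega)
      · have h2 : m' l = gm (e + K) (e + l) := by simp [hm', hl0]
        rw [h2]
        exact (gm_exponents (e + K)).2.2 (e + l) (by omega)
  have hr0 : r' 0 = 0 := h0 e (by omega)
  have hpath : Path K r' := ⟨hr0.symm.le, fun l hl => hr.2.1.2 (e + l) (by omega)⟩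
  have hend : r' K ≤ b ^ 2 := hr.2.2
  have hcas : cascade (gm (e + K)) r (e + K) lc = cascade m' r' K lc := by
    rw [minb_split, minb_flat (fun l h1 h2 => (grid_gm_pos h1).ne')
      (fun l hl => by rw [h0 l (by omega), h0 0 (by omega)])]
    refine minb_congr (fun l h1 h2 => ?_) (fun l hl => rfl) lc
    have : l ≠ 0 := by omega
    simp [hm', this]
  have hspin : spinPart K m' r' = spinPart (e + K) (gm (e + K)) r := by
    unfold spinPart
    have h1 : cascade m' r' K (fun x => Real.log (Real.cosh x)) =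
        cascade (gm (e + K)) r (e + K) (fun x => Real.log (Real.cosh x)) := hcas.symm
    rw [h1, hr0, h0 0 (by omega)]
  have hsum : ∑ l ∈ Finset.range (K + 1), (m' (l + 1) - m' l) * r' l ^ 2 =
      ∑ l ∈ Finset.range (e + K + 1), (gm (e + K) (l + 1) - gm (e + K) l) * r l ^ 2 := by
    have h1 : e + K + 1 = e + (K + 1) := by ring
    rw [h1, Finset.sum_range_add _ e (K + 1)]
    have h2 : ∑ l ∈ Finset.range e, (gm (e + K) (l + 1) - gm (e + K) l) * r l ^ 2 = 0 := by
      refine Finset.sum_eq_zero fun l hl => ?_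
      have := Finset.mem_range.1 hl
      rw [h0 l (by omega)]
      ring
    rw [h2, zero_add]
    refine Finset.sum_congr rfl fun l hl => ?_
    by_cases hl0 : l = 0
    · subst hl0
      have h3 : r (e + 0) = 0 := h0 e (by omega)
      rw [hr0, h3]
      ring
    · have h3 : m' l = gm (e + K) (e + l) := by simp [hm', hl0]
      have h4 : m' (l + 1) = gm (e + K) (e + (l + 1)) := by simp [hm']
      rw [h3, h4]
      rfl
  have hSK : SKr b K m' r' = SKr b (e + K) (gm (e + K)) r := by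
    unfold SKr
    rw [hspin, hsum]
  refine ⟨m', fun l => r' l / b ^ 2, hexp, ⟨?_, fun l hl => ?_⟩, ?_, ?_, fun j hj => ?_,
    fun j => rfl, ?_, ?_⟩
  · exact div_nonneg hpath.1 (by positivity)
  · exact div_le_div_of_nonneg_right (hpath.2 l hl) (by positivity)
  · simp only [hr0, zero_div]
  · simp only []
    rw [div_le_one (by positivity)]
    exact hend
  · have : j ≠ 0 := by omega
    simp [hm', this]
  · rw [gap2_SKr_eq hb0, hSK]
  · have e1 : (fun l => b ^ 2 * (r' l / b ^ 2)) = r' := by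
      funext l
      field_simp
    simp only [e1]
    exact hcas.symm

/-- **The path with a jump, in a field.**  For every `ε > 0` there are `c, C` such that for every `y ∈ (0, c]`
there is a path with first exponent in `[y, 1.01 y]`, at most `C y` up to a level `L` with exponent
in `[1.4 y, 2 y]`, and value at most `P₀ + (A + ε) y⁵`. -/
theorem path_CV {b : ℝ} (hb : 1 < b) {A : ℝ}
    (hA : Tendsto (fun x => (Vx b x - P0 b) / x ^ 5) (𝓝[>] 0) (𝓝 A)) :
    ∀ ε : ℝ, 0 < ε → ∃ c C : ℝ, 0 < c ∧ 1 ≤ C ∧ ∀ y : ℝ, 0 < y → y ≤ c →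
      ∃ (K : ℕ) (m q : ℕ → ℝ) (L : ℕ), Exponents K m ∧ Path K q ∧ q 0 = 0 ∧ q K ≤ 1 ∧
        y ≤ m 1 ∧ m 1 ≤ 1.01 * y ∧ 1 ≤ L ∧ L ≤ K ∧ 1.4 * y ≤ m L ∧ m L ≤ 2 * y ∧
        (∀ l < L, q l ≤ C * y) ∧ SKpar b K m q ≤ P0 b + (A + ε) * y ^ 5 ∧
        ∀ V : ℝ, 0 ≤ V → spinPart K m (fun l => if l = 0 then 0 else b ^ 2 * q l + V) + V / 2 ≤
          spinPart K m (fun l => b ^ 2 * q l) + V / (2 * b) + C * y ^ 2 * V := by
  intro ε hε
  have hb0 : 0 < b := by linarith
  obtain ⟨ca, Ca, hca, hCa, hlA⟩ := lawA hb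
  obtain ⟨cc, Cc, hcc, hCc, hlC⟩ := lawC hb
  obtain ⟨cv, Cv, hcv, hCv, hlV⟩ := R3.H729.law hb
  -- the scale of the value
  have hev : ∀ᶠ x in 𝓝[>] (0 : ℝ), |(Vx b x - P0 b) / x ^ 5 - A| ≤ ε / 2 := by
    filter_upwards [(Metric.tendsto_nhds.1 hA) (ε / 2) (by positivity)] with x hx
    rw [Real.dist_eq] at hx
    exact hx.le
  obtain ⟨y₁, hy₁, hyV⟩ : ∃ y₁ : ℝ, 0 < y₁ ∧ ∀ y, 0 < y → y < y₁ →
      |(Vx b y - P0 b) / y ^ 5 - A| ≤ ε / 2 := by
    rw [eventually_nhdsWithin_iff, Metric.eventually_nhds_iff] at hev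
    obtain ⟨δ, hδ, h⟩ := hev
    refine ⟨δ, hδ, fun y hy0 hy => h ?_ hy0⟩
    rw [Real.dist_eq, sub_zero, abs_of_pos hy0]
    exact hy
  -- the constants
  obtain ⟨c, hc⟩ : ∃ c : ℝ, c = min (min (y₁ / 2) (min (1 / 4) (cv / 2)))
    (min (min (ca / 2) (cc / 2)) ((1 / (20 * Cc)) ^ 2)) := ⟨_, rfl⟩
  have hCc0 : 0 < Cc := by linarith only [hCc]
  have hc0 : 0 < c := by rw [hc]; positivity
  have hcy : c ≤ y₁ / 2 := by
    rw [hc]; exact (min_le_left _ _).trans (min_le_left _ _)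
  have hc4 : c ≤ 1 / 4 := by
    rw [hc]; exact (min_le_left _ _).trans ((min_le_right _ _).trans (min_le_left _ _))
  have hccv : c ≤ cv / 2 := by
    rw [hc]; exact (min_le_left _ _).trans ((min_le_right _ _).trans (min_le_right _ _))
  have hcca : c ≤ ca / 2 := by
    rw [hc]; exact (min_le_right _ _).trans ((min_le_left _ _).trans (min_le_left _ _))
  have hccc : c ≤ cc / 2 := by
    rw [hc]; exact (min_le_right _ _).trans ((min_le_left _ _).trans (min_le_right _ _))
  have hcs : c ≤ (1 / (20 * Cc)) ^ 2 := by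
    rw [hc]; exact (min_le_right _ _).trans (min_le_right _ _)
  refine ⟨c, 2 * (Ca + 1) + Cv, hc0, by linarith only [hCa, hCv], fun y hy hyc => ?_⟩
  have hy1 : y < 1 := by linarith only [hyc, hc4]
  have hy5 : 0 < y ^ 5 := by positivity
  -- the grid
  have t := shlim_td hy
  have e1 : ∀ᶠ n : ℕ in atTop, gm n (shlimd y n) < 1.01 * y :=
    t.eventually (gt_mem_nhds (by linarith only [hy]))
  have e2 : ∀ᶠ n : ℕ in atTop, 2 * b ^ 2 / ((n : ℝ) + 1) ≤ ε / 2 * y ^ 5 := by
    have h1 : Tendsto (fun n : ℕ => 2 * b ^ 2 / ((n : ℝ) + 1)) atTop (𝓝 0) :=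
      tendsto_const_nhds.div_atTop shlim_n1
    exact (h1.eventually (gt_mem_nhds (by positivity))).mono fun _ h => h.le
  have e3 : ∀ᶠ n : ℕ in atTop, 2 / ((n : ℝ) + 1) ≤ 0.6 * y := by
    have h1 : Tendsto (fun n : ℕ => 2 / ((n : ℝ) + 1)) atTop (𝓝 0) :=
      tendsto_const_nhds.div_atTop shlim_n1
    exact (h1.eventually (gt_mem_nhds (by positivity))).mono fun _ h => h.le
  obtain ⟨n, h1, h2, h2', h3, h4⟩ := (e1.and (e2.and (e3.and ((shlim_le hy1).and
    (shlim_big hy (max (max Ca Cc) Cv) 40))))).exists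
  have g1 := shlim_ge y n
  have g2 := shlim_one hy n
  have g3 := shlim_lt hy n
  generalize shlimd y n = d at *
  obtain ⟨r, hr⟩ := exists_minD (n := n) (d := d) hb0 h3
  have hgc : gm n d ≤ 2 * c := by linarith only [h1, hyc, hy]
  obtain ⟨-, a2, -, -⟩ := hlA n d r g2 h3 hr (by linarith only [hgc, hcca])
    (((le_max_left _ _).trans (le_max_left _ _)).trans h4)
  obtain ⟨L, l1, l2, l3, l4, l5⟩ := hlC n d r g2 h3 hr (by linarith only [hgc, hccc])
    (((le_max_right _ _).trans (le_max_left _ _)).trans h4)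
  -- the level of the jump
  obtain ⟨L', hL'⟩ : ∃ L', L' = min L (2 * (d - 1)) := ⟨_, rfl⟩
  have hn1 : (0 : ℝ) < (n : ℝ) + 1 := by positivity
  have hgm2 : gm n (2 * (d - 1)) = 2 * gm n (d - 1) := by
    unfold gm
    push_cast
    ring
  have hgm1 : gm n d = gm n (d - 1) + 1 / ((n : ℝ) + 1) := by
    have := gm_sub n (d - 1)
    rw [show d - 1 + 1 = d by omega] at this
    linarith only [this]
  have hgm3 : 1.4 * y ≤ gm n (2 * (d - 1)) := by
    have : 2 / ((n : ℝ) + 1) = 2 * (1 / ((n : ℝ) + 1)) := by ring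
    rw [this] at h2'
    linarith only [hgm1, hgm2, g1, h2']
  have hdL' : d < L' := by
    rw [hL', lt_min_iff]
    refine ⟨l1, ?_⟩
    by_contra hcon
    have h5 : gm n (2 * (d - 1)) ≤ gm n d := grid_gm_mono (by omega)
    linarith only [h5, hgm3, h1, hy]
  have hL'2 : gm n L' ≤ 2 * y := by
    have h5 : gm n L' ≤ gm n (2 * (d - 1)) := grid_gm_mono (by omega)
    linarith only [h5, hgm2, g3]
  have hL'L : L' ≤ L := by omega
  obtain ⟨v1, -⟩ := hlV n d r g2 h3 hr (by linarith only [hgc, hccv])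
    ((le_max_right _ _).trans h4)
  obtain ⟨e, rfl⟩ : ∃ e, d = e + 1 := ⟨d - 1, by omega⟩
  obtain ⟨K, rfl⟩ : ∃ K, n = e + K := ⟨n - e, by omega⟩
  obtain ⟨m, q, f1, f2, f3, f4, f5, f6, f7, f8⟩ := shift_path' hb0 hr.1 hr.2.1
  have hg0 : 0 < gm (e + K) (e + 1) := hy.trans_le g1
  have hg1 : gm (e + K) (e + 1) ≤ 1 := by linarith only [h1, hy1, hyc, hc4, hy]
  refine ⟨K, m, q, L' - e, f1, f2, f3, f4, ?_, ?_, by omega, by omega, ?_, ?_, fun l hl => ?_, ?_,
    fun V hV => ?_⟩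
  · rw [f5 1 le_rfl]
    exact g1
  · rw [f5 1 le_rfl]
    exact h1.le
  · rw [f5 (L' - e) (by omega), show e + (L' - e) = L' by omega]
    suffices hsuf : 1.4 * y ≤ gm (e + K) L by
      rcases min_choice L (2 * (e + 1 - 1)) with h5 | h5
      · rw [hL', h5]; exact hsuf
      · rw [hL', h5]; exact hgm3
    refine le_trans ?_ l5
    have hs : √(gm (e + K) (e + 1)) ≤ 1 / (10 * Cc) := by
      rw [Real.sqrt_le_left (by positivity)]
      have h5 : 1.01 * y ≤ 2 * (1 / (20 * Cc)) ^ 2 := by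
        have h6 : 0 < (1 / (20 * Cc)) ^ 2 := by positivity
        linarith only [hyc, hcs, h6, hy]
      have h7 : (1 / (10 * Cc)) ^ 2 = 4 * (1 / (20 * Cc)) ^ 2 := by
        field_simp
        ring
      have h6 : 0 < (1 / (20 * Cc)) ^ 2 := by positivity
      rw [h7]
      linarith only [h5, h1, h6]
    have h8 : Cc * (gm (e + K) (e + 1) * √(gm (e + K) (e + 1))) ≤
        1 / 10 * gm (e + K) (e + 1) := by
      calc Cc * (gm (e + K) (e + 1) * √(gm (e + K) (e + 1))) =
            Cc * gm (e + K) (e + 1) * √(gm (e + K) (e + 1)) := by ring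
        _ ≤ Cc * gm (e + K) (e + 1) * (1 / (10 * Cc)) :=
            mul_le_mul_of_nonneg_left hs (by positivity)
        _ = 1 / 10 * gm (e + K) (e + 1) := by field_simp
    linarith only [h8, g1]
  · rw [f5 (L' - e) (by omega), show e + (L' - e) = L' by omega]
    exact hL'2
  · rw [f6, div_le_iff₀ (by positivity)]
    have h5 : r (e + l) ≤ r (L - 1) := len_mono hr.1 (by omega) (by omega)
    have h6 : gm (e + K) (e + 1) ^ 4 ≤ gm (e + K) (e + 1) := by
      calc gm (e + K) (e + 1) ^ 4 ≤ gm (e + K) (e + 1) ^ 1 :=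
            pow_le_pow_of_le_one hg0.le hg1 (by norm_num)
        _ = _ := pow_one _
    have h7 : r (e + l) ≤ (Ca + 1) * gm (e + K) (e + 1) := by
      linarith only [h5, l4, a2, h6]
    have h8 : (Ca + 1) * gm (e + K) (e + 1) ≤ (Ca + 1) * (2 * y) :=
      mul_le_mul_of_nonneg_left (by linarith only [h1, hy]) (by linarith only [hCa])
    have h9 : (2 * (Ca + 1) + Cv) * y ≤ (2 * (Ca + 1) + Cv) * y * b ^ 2 := by
      refine le_mul_of_one_le_right ?_ ?_
      · have : 0 < 2 * (Ca + 1) + Cv := by linarith only [hCa, hCv]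
        positivity
      · exact one_le_pow₀ hb.le
    have h10 : 0 ≤ Cv * y := by
      have : 0 < Cv := by linarith only [hCv]
      positivity
    have h11 : (2 * (Ca + 1) + Cv) * y = 2 * (Ca + 1) * y + Cv * y := by ring
    linarith only [h7, h8, h9, h10, h11]
  · rw [f7]
    have h5 := vx_ge hb g2 h3 hy hy1.le g3 hr
    have h6 := (abs_le.1 (hyV y hy (by linarith only [hyc, hcy, hy]))).2
    have h7 : (Vx b y - P0 b) / y ^ 5 ≤ A + ε / 2 := by linarith only [h6]
    rw [div_le_iff₀ hy5] at h7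
    have h8 : (A + ε) * y ^ 5 = (A + ε / 2) * y ^ 5 + ε / 2 * y ^ 5 := by ring
    rw [h8]
    linarith only [h5, h7, h2]
  · have hbq : Path K (fun l => b ^ 2 * q l) :=
      ⟨mul_nonneg (sq_nonneg b) f2.1, fun l hl =>
        mul_le_mul_of_nonneg_left (f2.2 l hl) (sq_nonneg b)⟩
    have h5 := field_path f1 hbq (by simp only [f3, mul_zero]) (by omega) hV
    rw [f8] at h5
    have h6 : iteratedDeriv 2 (cascade (gm (e + K)) r (e + K) lc) 0 = vv (e + K) r := by
      unfold vv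
      rw [fl_zero]
    rw [h6] at h5
    have h7 := (abs_le.1 v1).2
    have h8 : gm (e + K) (e + 1) ^ 2 ≤ 2 * y ^ 2 := by
      have h9 : gm (e + K) (e + 1) ^ 2 ≤ (1.01 * y) ^ 2 := pow_le_pow_left₀ hg0.le h1.le 2
      have h10 : (1.01 * y) ^ 2 = 1.0201 * y ^ 2 := by ring
      have h11 : 0 ≤ y ^ 2 := sq_nonneg y
      linarith only [h9, h10, h11]
    have h9 : Cv * gm (e + K) (e + 1) ^ 2 ≤ Cv * (2 * y ^ 2) :=
      mul_le_mul_of_nonneg_left h8 (by linarith only [hCv])
    have h10 : vv (e + K) r ≤ 1 / b + 2 * Cv * y ^ 2 := by linarith only [h7, h9]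
    have h11 : V / 2 * vv (e + K) r ≤ V / 2 * (1 / b + 2 * Cv * y ^ 2) :=
      mul_le_mul_of_nonneg_left h10 (by linarith only [hV])
    have h12 : V / 2 * (1 / b + 2 * Cv * y ^ 2) = V / (2 * b) + Cv * y ^ 2 * V := by
      field_simp
    have h13 : Cv * y ^ 2 * V ≤ (2 * (Ca + 1) + Cv) * y ^ 2 * V := by
      have h14 : 0 ≤ y ^ 2 * V := mul_nonneg (sq_nonneg y) hV
      have h15 : 0 ≤ 2 * (Ca + 1) * (y ^ 2 * V) :=
        mul_nonneg (by linarith only [hCa]) h14
      linarith only [h15]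
    refine h5.trans ?_
    rw [h12] at h11
    linarith only [h11, h13]

end Vale.Agent.P146.H443
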